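import Vale.Agent.P197.TS.Spec

/-!
# The coefficient of `(A⁻ Γ⁺)²` (P197, question Q2)
-/

namespace Vale.Agent.P197.TS

open Finset

section C

variable {G : Type*} [Group G] [Fintype G] [DecidableEq G]

/-- the matrix of the left translation -/
def lt (g : G) : Matrix G G ℤ := Matrix.of fun x y => if x = g * y then 1 else 0

theorem lt_mul (g h : G) : lt (g * h) = lt g * lt h := by
  ext x z
  simp only [lt, Matrix.of_apply, Matrix.mul_apply, mul_ite, mul_one, mul_zero]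
  rw [Finset.sum_ite_eq' univ (h * z)]
  simp [mul_assoc]

theorem lt_transpose (g : G) : (lt g).transpose = lt g⁻¹ := by
  ext x z
  simp only [lt, Matrix.of_apply, Matrix.transpose_apply]
  congr 1
  rw [eq_iff_iff]
  constructor
  · rintro rfl
    simp
  · rintro rfl
    simp

theorem lt_one_apply (g : G) : lt g 1 1 = if g = 1 then 1 else 0 := by
  simp only [lt, Matrix.of_apply, mul_one]
  congr 1
  rw [eq_iff_iff]
  exact eq_comm

/-- `A⁻` -/
def am (s : G →* ℤˣ) (A : Finset G) : Matrix G G ℤ := ∑ a ∈ A, (s a : ℤ) • lt a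

theorem am_mul {s : G →* ℤˣ} {A : Finset G} (hm : ∀ a ∈ A, ∀ b ∈ A, a * b ∈ A)
    (hi : ∀ a ∈ A, a⁻¹ ∈ A) {τ : G} (hτ : τ ∈ A) : am s A * lt τ = (s τ : ℤ) • am s A := by
  unfold am
  rw [Finset.sum_mul, Finset.smul_sum]
  refine Finset.sum_bij' (fun a _ => a * τ) (fun a _ => a * τ⁻¹) (fun a ha => hm a ha τ hτ)
    (fun a ha => hm a ha _ (hi τ hτ)) (fun a _ => by simp) (fun a _ => by simp) ?_
  intro a _
  rw [Matrix.smul_mul, ← lt_mul, smul_smul]
  congr 1
  rw [map_mul, Units.val_mul, mul_comm (s a : ℤ), ← mul_assoc, ← Units.val_mul,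
    Int.units_mul_self, Units.val_one, one_mul]

theorem mul_am {s : G →* ℤˣ} {A : Finset G} (hm : ∀ a ∈ A, ∀ b ∈ A, a * b ∈ A)
    (hi : ∀ a ∈ A, a⁻¹ ∈ A) {τ : G} (hτ : τ ∈ A) : lt τ * am s A = (s τ : ℤ) • am s A := by
  unfold am
  rw [Finset.mul_sum, Finset.smul_sum]
  refine Finset.sum_bij' (fun a _ => τ * a) (fun a _ => τ⁻¹ * a) (fun a ha => hm τ hτ a ha)
    (fun a ha => hm _ (hi τ hτ) a ha) (fun a _ => by simp) (fun a _ => by simp) ?_
  intro a _
  rw [Matrix.mul_smul, ← lt_mul, smul_smul]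
  congr 1
  rw [map_mul, Units.val_mul, ← mul_assoc, ← Units.val_mul,
    Int.units_mul_self, Units.val_one, one_mul]

theorem am_sq {s : G →* ℤˣ} {A : Finset G} (hm : ∀ a ∈ A, ∀ b ∈ A, a * b ∈ A)
    (hi : ∀ a ∈ A, a⁻¹ ∈ A) : am s A * am s A = (A.card : ℤ) • am s A := by
  have h : am s A * am s A = ∑ a ∈ A, ((s a : ℤ) • lt a) * am s A := by
    rw [← Finset.sum_mul]
    rfl
  rw [h, Finset.sum_congr rfl (g := fun _ => am s A), Finset.sum_const]
  · simp
  · intro a ha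
    rw [Matrix.smul_mul, mul_am hm hi ha, smul_smul, ← Units.val_mul, Int.units_mul_self,
      Units.val_one, one_smul]

theorem am_transpose {s : G →* ℤˣ} {A : Finset G} (hi : ∀ a ∈ A, a⁻¹ ∈ A) :
    (am s A).transpose = am s A := by
  unfold am
  rw [Matrix.transpose_sum]
  refine Finset.sum_bij' (fun a _ => a⁻¹) (fun a _ => a⁻¹) hi hi (fun a _ => by simp)
    (fun a _ => by simp) ?_
  intro a _
  rw [Matrix.transpose_smul, lt_transpose, map_inv, Int.units_inv_eq_self]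

omit [Group G] [DecidableEq G] in
theorem eq_zero_of_sq {M : Matrix G G ℤ} (h : M.transpose = M) (h2 : M * M = 0) : M = 0 := by
  ext x y
  have h3 := congrFun (congrFun h2 x) x
  rw [Matrix.mul_apply, Matrix.zero_apply] at h3
  have h4 : ∀ z, M z x = M x z := fun z => congrFun (congrFun h x) z
  simp only [h4] at h3
  rw [Finset.sum_eq_zero_iff_of_nonneg (fun z _ => mul_self_nonneg _)] at h3
  simpa using h3 y (Finset.mem_univ y)

/-- The coefficient `c` with `(A⁻ Γ⁺)² = c A⁻ Γ⁺` is not zero. -/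
theorem coeff_ne_zero (s : G →* ℤˣ) (A Γ : Finset G)
    (hA1 : 1 ∈ A) (hAm : ∀ a ∈ A, ∀ b ∈ A, a * b ∈ A) (hAi : ∀ a ∈ A, a⁻¹ ∈ A)
    (hΓ1 : 1 ∈ Γ) (hΓm : ∀ a ∈ Γ, ∀ b ∈ Γ, a * b ∈ Γ) (hΓi : ∀ a ∈ Γ, a⁻¹ ∈ Γ)
    (h1 : ∀ g ∈ A, g ∈ Γ → g = 1)
    (h2 : ∀ κ ∈ Γ, ∀ a ∈ A, (∃ a1 ∈ A, ∃ γ ∈ Γ, κ * a = a1 * γ) ∨
      ∃ τ ∈ A, (κ * a)⁻¹ * τ * (κ * a) ∈ Γ ∧ s τ = -1) :
    (∑ κ ∈ Γ, ∑ a ∈ A, ∑ a1 ∈ A, ∑ γ ∈ Γ,
      if κ * a = a1 * γ then ((s a : ℤ) * (s a1 : ℤ)) else 0) ≠ 0 := by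
  set P := am s A with hP
  set Q := am (1 : G →* ℤˣ) Γ with hQ
  have hPQ : ∀ κ ∈ Γ, ∀ a ∈ A, P * lt (κ * a) * Q =
      (∑ a1 ∈ A, ∑ γ ∈ Γ, if κ * a = a1 * γ then (s a1 : ℤ) else 0) • (P * Q) := by
    intro κ hκ a ha
    by_cases hex : ∃ a1 ∈ A, ∃ γ ∈ Γ, κ * a = a1 * γ
    · obtain ⟨a1, ha1, γ, hγ, he⟩ := hex
      have e1 : ∀ a2 ∈ A, ∀ γ2 ∈ Γ, κ * a = a2 * γ2 → a2 = a1 ∧ γ2 = γ := by
        intro a2 ha2 γ2 hγ2 he2
        have e3 : a1⁻¹ * a2 = γ * γ2⁻¹ := by
          rw [he] at he2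
          rw [inv_mul_eq_iff_eq_mul, ← mul_assoc, he2]
          simp
        have e4 := h1 _ (hAm _ (hAi _ ha1) _ ha2) (by rw [e3]; exact hΓm _ hγ _ (hΓi _ hγ2))
        have e5 : a2 = a1 := by
          rw [inv_mul_eq_one] at e4
          exact e4.symm
        rw [e4] at e3
        exact ⟨e5, (mul_inv_eq_one.1 e3.symm).symm⟩
      have e2 : (∑ a1 ∈ A, ∑ γ ∈ Γ, if κ * a = a1 * γ then (s a1 : ℤ) else 0) = s a1 := by
        rw [Finset.sum_eq_single_of_mem a1 ha1, Finset.sum_eq_single_of_mem γ hγ, if_pos he]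
        · intro γ2 hγ2 hne
          rw [if_neg]
          intro h
          exact hne (e1 a1 ha1 γ2 hγ2 h).2
        · intro a2 ha2 hne
          refine Finset.sum_eq_zero fun γ2 hγ2 => ?_
          rw [if_neg]
          intro h
          exact hne (e1 a2 ha2 γ2 hγ2 h).1
      have e6 : P * (lt a1 * lt γ) * Q = (P * lt a1) * (lt γ * Q) := by
        simp only [mul_assoc]
      rw [e2, he, lt_mul, e6, hP, hQ, am_mul hAm hAi ha1, mul_am hΓm hΓi hγ,
        MonoidHom.one_apply, Units.val_one, one_smul, Matrix.smul_mul]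
    · have e2 : (∑ a1 ∈ A, ∑ γ ∈ Γ, if κ * a = a1 * γ then (s a1 : ℤ) else 0) = 0 := by
        refine Finset.sum_eq_zero fun a2 ha2 => Finset.sum_eq_zero fun γ2 hγ2 => ?_
        rw [if_neg]
        intro h
        exact hex ⟨a2, ha2, γ2, hγ2, h⟩
      rw [e2, zero_smul]
      obtain ⟨τ, hτ, hτ2, hτ3⟩ := (h2 κ hκ a ha).resolve_left hex
      have e3 : P * lt (κ * a) * Q = -(P * lt (κ * a) * Q) := by
        calc P * lt (κ * a) * Q
            = P * lt (κ * a) * (lt ((κ * a)⁻¹ * τ * (κ * a)) * Q) := by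
              rw [hQ, mul_am hΓm hΓi hτ2]
              simp
          _ = P * lt τ * lt (κ * a) * Q := by
              have e7 : P * lt (κ * a) * (lt ((κ * a)⁻¹ * τ * (κ * a)) * Q) =
                  P * (lt (κ * a) * lt ((κ * a)⁻¹ * τ * (κ * a))) * Q := by
                simp only [mul_assoc]
              have e8 : P * lt τ * lt (κ * a) * Q = P * (lt τ * lt (κ * a)) * Q := by
                simp only [mul_assoc]
              rw [e7, e8, ← lt_mul, ← lt_mul]
              congr 3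
              group
          _ = _ := by
              rw [hP, am_mul hAm hAi hτ, hτ3]
              simp
      have e4 : ∀ M : Matrix G G ℤ, M = -M → M = 0 := by
        intro M hM
        ext x y
        have := congrFun (congrFun hM x) y
        rw [Matrix.neg_apply] at this
        rw [Matrix.zero_apply]
        omega
      exact e4 _ e3
  intro hc
  have hzero : P * Q * P * Q = 0 := by
    have e0 : Q * P = ∑ κ ∈ Γ, ∑ a ∈ A, (s a : ℤ) • lt (κ * a) := by
      have eQ : Q = ∑ κ ∈ Γ, lt κ := by simp [hQ, am]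
      rw [eQ, Finset.sum_mul]
      refine Finset.sum_congr rfl fun κ _ => ?_
      rw [hP, am, Finset.mul_sum]
      refine Finset.sum_congr rfl fun a _ => ?_
      rw [lt_mul, Matrix.mul_smul]
    have e1 : P * Q * P * Q = ∑ κ ∈ Γ, ∑ a ∈ A, (s a : ℤ) • (P * lt (κ * a) * Q) := by
      rw [mul_assoc P Q P, e0, Finset.mul_sum, Finset.sum_mul]
      refine Finset.sum_congr rfl fun κ _ => ?_
      rw [Finset.mul_sum, Finset.sum_mul]
      refine Finset.sum_congr rfl fun a _ => ?_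
      rw [Matrix.mul_smul, Matrix.smul_mul]
    rw [e1]
    have e2 : ∀ κ ∈ Γ, ∀ a ∈ A, (s a : ℤ) • (P * lt (κ * a) * Q) =
        (∑ a1 ∈ A, ∑ γ ∈ Γ, if κ * a = a1 * γ then ((s a : ℤ) * (s a1 : ℤ)) else 0) •
          (P * Q) := by
      intro κ hκ a ha
      rw [hPQ κ hκ a ha, smul_smul]
      congr 1
      rw [Finset.mul_sum]
      refine Finset.sum_congr rfl fun a1 _ => ?_
      rw [Finset.mul_sum]
      refine Finset.sum_congr rfl fun γ _ => ?_
      rw [mul_ite, mul_zero]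
    rw [Finset.sum_congr rfl (fun κ hκ => Finset.sum_congr rfl (fun a ha => e2 κ hκ a ha))]
    simp only [← Finset.sum_smul]
    rw [hc, zero_smul]
  have hPt : P.transpose = P := am_transpose hAi
  have hQt : Q.transpose = Q := am_transpose hΓi
  have hZ : P * Q * P = 0 := by
    refine eq_zero_of_sq ?_ ?_
    · rw [Matrix.transpose_mul, Matrix.transpose_mul, hPt, hQt, mul_assoc]
    · have : P * Q * P * (P * Q * P) = P * Q * (P * P) * Q * P := by
        simp only [mul_assoc]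
      rw [this, hP, am_sq hAm hAi, ← hP]
      have : P * Q * ((A.card : ℤ) • P) * Q * P = (A.card : ℤ) • (P * Q * P * Q * P) := by
        simp only [Matrix.mul_smul, Matrix.smul_mul]
      rw [this, hzero, zero_mul, smul_zero]
  have hPQ0 : P * Q = 0 := by
    have h5 : P * Q * (P * Q).transpose = 0 := by
      rw [Matrix.transpose_mul, hPt, hQt]
      have : P * Q * (Q * P) = P * (Q * Q) * P := by simp only [mul_assoc]
      rw [this, hQ, am_sq hΓm hΓi, ← hQ]
      have : P * ((Γ.card : ℤ) • Q) * P = (Γ.card : ℤ) • (P * Q * P) := by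
        simp only [Matrix.mul_smul, Matrix.smul_mul]
      rw [this, hZ, smul_zero]
    ext x y
    have h3 := congrFun (congrFun h5 x) x
    rw [Matrix.mul_apply, Matrix.zero_apply] at h3
    simp only [Matrix.transpose_apply] at h3
    rw [Finset.sum_eq_zero_iff_of_nonneg (fun z _ => mul_self_nonneg _)] at h3
    simpa using h3 y (Finset.mem_univ y)
  have h6 : (P * Q) 1 1 = 1 := by
    have e1 : P * Q = ∑ a ∈ A, ∑ γ ∈ Γ, (s a : ℤ) • lt (a * γ) := by
      have eQ : Q = ∑ κ ∈ Γ, lt κ := by simp [hQ, am]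
      rw [hP, am, Finset.sum_mul]
      refine Finset.sum_congr rfl fun a _ => ?_
      rw [eQ, Finset.mul_sum]
      refine Finset.sum_congr rfl fun γ _ => ?_
      rw [lt_mul, Matrix.smul_mul]
    rw [e1, Matrix.sum_apply]
    simp only [Matrix.sum_apply, Matrix.smul_apply, lt_one_apply, smul_eq_mul, mul_ite, mul_one,
      mul_zero]
    rw [Finset.sum_eq_single_of_mem 1 hA1, Finset.sum_eq_single_of_mem 1 hΓ1]
    · simp
    · intro γ _ hne
      rw [if_neg]
      simpa using hne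
    · intro a ha hne
      refine Finset.sum_eq_zero fun γ hγ => ?_
      rw [if_neg]
      intro h
      refine hne (h1 a ha ?_)
      rw [mul_eq_one_iff_eq_inv] at h
      rw [h]
      exact hΓi _ hγ
  rw [hPQ0] at h6
  simp at h6

end C

end Vale.Agent.P197.TS
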